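import Vale.Agent.P022.H239.L3.LowDef
import Vale.Agent.P022.H790.A1

/-!
# P022-L3, row [A10]: the powers of `D` are reductions of cusp forms of level three
-/

open UpperHalfPlane hiding I
open Matrix CongruenceSubgroup Complex
open scoped MatrixGroups ModularForm Manifold Real

noncomputable section

namespace Vale.Agent.P022.H239.L3

open Vale.Agent.P022

/-- a cusp form of level one as a cusp form of level three -/
def res3c {k : ℤ} (f : CuspForm 𝒮ℒ k) : CuspForm (Gam 3) k where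
  toFun := f
  slash_action_eq' γ hγ := f.slash_action_eq' γ (by
    obtain ⟨g, _, rfl⟩ := hγ
    exact ⟨g, rfl⟩)
  holo' := f.holo'
  zero_at_cusps' hc := f.zero_at_cusps' (hc.mono (by
    rintro _ ⟨g, _, rfl⟩
    exact ⟨g, rfl⟩))

/-- `θ f` for a cusp form `f` of level one with integral expansion -/
theorem red_mem {k : ℕ} (f : CuspForm 𝒮ℒ (k : ℤ)) (a : ℕ → ℤ)
    (ha : ∀ n, (qExpansion 1 f).coeff n = (a n : ℂ)) : red a ∈ Rk' k := by
  obtain ⟨θ, F, h1, h2⟩ := exists_mul' (f : ModularForm 𝒮ℒ (k : ℤ)) a ha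
  refine ⟨thC a, F, h1, ?_, red_thC a⟩
  have e : ((k : ℤ)) + ((1 : ℕ) : ℤ) = ((k + 1 : ℕ) : ℤ) := by push_cast; ring
  refine ⟨CuspForm.mcast e ((res3c f).mulModularForm θ), ?_⟩
  rw [h2]
  funext τ
  change (f : ℍ → ℂ) τ * (θ : ℍ → ℂ) τ = (θ : ℍ → ℂ) τ * (f : ℍ → ℂ) τ
  ring

/-- `D ^ n` is the reduction of a cusp form of weight `12 n + 4 a + 6 b + 1` -/
theorem D_pow_mem (n a b : ℕ) (hn : 1 ≤ n) : H790.A.D ^ n ∈ Rk' (12 * n + 4 * a + 6 * b) := by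
  obtain ⟨m, rfl⟩ : ∃ m, n = m + 1 := ⟨n - 1, by omega⟩
  obtain ⟨F, Z, hF, hZ⟩ := H790.A.exists_form m a b
  have e : (12 : ℤ) + ((m : ℤ) * 12 + ((a : ℤ) * 4 + (b : ℤ) * 6)) =
      ((12 * (m + 1) + 4 * a + 6 * b : ℕ) : ℤ) := by push_cast; ring
  let G : CuspForm 𝒮ℒ ((12 * (m + 1) + 4 * a + 6 * b : ℕ) : ℤ) :=
    CuspForm.mcast e ((CuspForm.discriminant : CuspForm 𝒮ℒ 12).mulModularForm F)
  have hG : (G : ℍ → ℂ) = ((CuspForm.discriminant : CuspForm 𝒮ℒ 12) : ℍ → ℂ) * (F : ℍ → ℂ) := rfl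
  have h1 : qExpansion 1 (G : ℍ → ℂ) = H790.A.toC (H790.A.DZ * Z) := by
    rw [hG, map_mul, ← H790.A.qExp_disc, ← hF]
    exact ModularForm.qExpansion_mul_coe one_pos one_mem_strictPeriods_SL
      ((CuspForm.discriminant : CuspForm 𝒮ℒ 12) : ModularForm 𝒮ℒ 12) F
  have h2 : red (fun k => (H790.A.DZ * Z).coeff k) = H790.A.D ^ (m + 1) := by
    rw [pow_succ', ← hZ, ← H790.A.red_DZ, ← map_mul]
    ext k
    rw [H790.A.red, PowerSeries.coeff_map, red, PowerSeries.coeff_mk]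
    rfl
  rw [← h2]
  refine red_mem G _ fun k => ?_
  rw [h1, H790.A.toC, PowerSeries.coeff_map]
  rfl

/-- every large even `i` -/
theorem D_pow_mem' {n i : ℕ} (hn : 1 ≤ n) (hi : Even i) (h : 12 * n + 4 ≤ i) :
    H790.A.D ^ n ∈ Rk' i := by
  obtain ⟨a, b, rfl⟩ : ∃ a b, i = 12 * n + 4 * a + 6 * b := by
    obtain ⟨m, hm⟩ := hi
    rcases Nat.even_or_odd (m - 6 * n) with ⟨c, hc⟩ | ⟨c, hc⟩
    · exact ⟨c, 0, by omega⟩
    · exact ⟨c - 1, 1, by omega⟩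
  exact D_pow_mem n a b hn

end Vale.Agent.P022.H239.L3
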