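import Vale.Agent.P022.H239.L3.Red

/-!
# P022-L3, row [ACT]: the action of `T_k` and of `ℤ₂ ⊗ T_k` on reductions modulo two
-/

open UpperHalfPlane hiding I
open Matrix CongruenceSubgroup Complex
open scoped MatrixGroups ModularForm Manifold Real TensorProduct

noncomputable section

namespace Vale.Agent.P022.H239.L3

open Vale.Agent.P022

/-- the reductions modulo two of the integral forms of weight `i + 1` -/
def Rk (i : ℕ) : Submodule (ZMod 2) (PowerSeries (ZMod 2)) where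
  carrier := {f | ∃ (a : ℕ → ℤ) (F : MF 3 (i + 1)), IntF (i + 1) a F ∧ red a = f}
  zero_mem' := ⟨0, 0, IntF.zero, red_zero⟩
  add_mem' := by
    rintro _ _ ⟨a, F, h, rfl⟩ ⟨b, G, h', rfl⟩
    exact ⟨a + b, F + G, h.add h', red_add a b⟩
  smul_mem' := by
    rintro c _ ⟨a, F, h, rfl⟩
    refine ⟨fun n => (c.val : ℤ) * a n, _, h.zsmul (c.val : ℤ), ?_⟩
    rw [red_mul]
    simp

theorem hbar_mem (i : ℕ) (s : Gen 3) (f : PowerSeries (ZMod 2)) (hf : f ∈ Rk i) :
    hbar s f ∈ Rk i := by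
  obtain ⟨a, F, h, rfl⟩ := hf
  obtain ⟨b, hb, eb⟩ := h.word (FreeAlgebra.ι ℤ s)
  rw [FreeAlgebra.lift_ι_apply] at eb
  exact ⟨b, _, hb, eb⟩

/-- the words on the reductions of weight `i + 1` -/
def wd (i : ℕ) : FreeAlgebra ℤ (Gen 3) →ₐ[ℤ] Module.End (ZMod 2) (Rk i) :=
  FreeAlgebra.lift ℤ (fun s => (hbar s).restrict (hbar_mem i s))

theorem wd_coe (i : ℕ) (x : FreeAlgebra ℤ (Gen 3)) : ∀ f : Rk i,
    ((wd i x f : Rk i) : PowerSeries (ZMod 2)) = FreeAlgebra.lift ℤ hbar x f := by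
  induction x using FreeAlgebra.induction with
  | grade0 m =>
    intro f
    rw [AlgHom.commutes, AlgHom.commutes, Algebra.algebraMap_eq_smul_one,
      Algebra.algebraMap_eq_smul_one, LinearMap.smul_apply, LinearMap.smul_apply,
      Module.End.one_apply, Module.End.one_apply]
    rfl
  | grade1 s =>
    intro f
    rw [wd, FreeAlgebra.lift_ι_apply, FreeAlgebra.lift_ι_apply]
    rfl
  | mul x y hx hy =>
    intro f
    rw [map_mul, map_mul, Module.End.mul_apply, Module.End.mul_apply, hx, hy]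
  | add x y hx hy =>
    intro f
    rw [map_add, map_add, LinearMap.add_apply, LinearMap.add_apply, Submodule.coe_add, hx, hy]

/-- the Hecke ring of weight `i + 1` -/
def TR (i : ℕ) : Subalgebra ℤ (Module.End ℂ (MF 3 (i + 1))) :=
  (FreeAlgebra.lift ℤ (fun s => gHk 3 s i)).range

/-- the words in the Hecke ring -/
def wT (i : ℕ) : FreeAlgebra ℤ (Gen 3) →ₐ[ℤ] TR i :=
  (FreeAlgebra.lift ℤ (fun s => gHk 3 s i)).rangeRestrict

theorem wT_surj (i : ℕ) : Function.Surjective (wT i) :=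
  AlgHom.rangeRestrict_surjective _

theorem ker_le (i : ℕ) : RingHom.ker (wT i).toRingHom ≤ RingHom.ker (wd i).toRingHom := by
  intro x hx
  rw [RingHom.mem_ker] at hx ⊢
  have h0 : FreeAlgebra.lift ℤ (fun s => gHk 3 s i) x = 0 := congrArg Subtype.val hx
  refine LinearMap.ext fun f => ?_
  apply Subtype.ext
  obtain ⟨f, a, F, h, rfl⟩ := f
  refine (wd_coe i x _).trans ?_
  exact h.word_zero (by rw [h0]; rfl)

/-- the Hecke ring of weight `i + 1` acts on the reductions -/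
def act (i : ℕ) : TR i →+* Module.End (ZMod 2) (Rk i) :=
  (RingHom.liftOfSurjective (wT i).toRingHom (wT_surj i)) ⟨(wd i).toRingHom, ker_le i⟩

theorem act_wT (i : ℕ) (x : FreeAlgebra ℤ (Gen 3)) : act i (wT i x) = wd i x :=
  RingHom.liftOfRightInverse_comp_apply _ _ _ ⟨(wd i).toRingHom, ker_le i⟩ x

theorem act_coe (i : ℕ) (x : FreeAlgebra ℤ (Gen 3)) (f : Rk i) :
    ((act i (wT i x) f : Rk i) : PowerSeries (ZMod 2)) = FreeAlgebra.lift ℤ hbar x f := by
  rw [act_wT, wd_coe]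

/-- the scalars of `ℤ₂` -/
def sc (i : ℕ) : ℤ_[2] →ₐ[ℤ] Module.End (ZMod 2) (Rk i) :=
  ((algebraMap (ZMod 2) (Module.End (ZMod 2) (Rk i))).comp PadicInt.toZMod).toIntAlgHom

theorem sc_apply (i : ℕ) (z : ℤ_[2]) :
    sc i z = algebraMap (ZMod 2) (Module.End (ZMod 2) (Rk i)) (PadicInt.toZMod z) := rfl

/-- `act` as an algebra homomorphism -/
def actA (i : ℕ) : TR i →ₐ[ℤ] Module.End (ZMod 2) (Rk i) := (act i).toIntAlgHom

theorem actA_apply (i : ℕ) (t : TR i) : actA i t = act i t := rfl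

theorem cm (i : ℕ) (z : ℤ_[2]) (t : TR i) : Commute (sc i z) (actA i t) := by
  rw [sc_apply]
  exact Algebra.commutes (PadicInt.toZMod z : ZMod 2) (actA i t)

/-- `ℤ₂ ⊗ T_k` acts on the reductions -/
def bet (i : ℕ) : ℤ_[2] ⊗[ℤ] TR i →ₐ[ℤ] Module.End (ZMod 2) (Rk i) :=
  Algebra.TensorProduct.lift (sc i) (actA i) (cm i)

theorem bet_tmul (i : ℕ) (z : ℤ_[2]) (t : TR i) :
    bet i (z ⊗ₜ t) = (PadicInt.toZMod z : ZMod 2) • act i t := by
  rw [bet, Algebra.TensorProduct.lift_tmul, sc_apply, actA_apply, Algebra.algebraMap_eq_smul_one,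
    smul_mul_assoc, one_mul]

theorem bet_two (i : ℕ) {t : ℤ_[2] ⊗[ℤ] TR i} (h : (2 : ℤ_[2] ⊗[ℤ] TR i) ∣ t) : bet i t = 0 := by
  obtain ⟨s, rfl⟩ := h
  have h2 : ((2 : ℤ_[2] ⊗[ℤ] TR i)) = 1 + 1 := by norm_num
  rw [map_mul, h2, map_add, map_one]
  have h3 : (1 : Module.End (ZMod 2) (Rk i)) + 1 = 0 := by
    refine LinearMap.ext fun f => ?_
    rw [LinearMap.add_apply, Module.End.one_apply, LinearMap.zero_apply, ← two_smul (ZMod 2) f]
    have : (2 : ZMod 2) = 0 := by decide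
    rw [this, zero_smul]
  rw [h3, zero_mul]

end Vale.Agent.P022.H239.L3
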