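import Mathlib

/-!
# P022-L3: the 2-adic completion `T` of a commutative ring `T₀` has `T / 2 = T₀ / 2`
-/

noncomputable section

namespace Vale.Agent.P022.H239.L3

variable (A : Type*) [CommRing A]

/-- the ideal `(2)` -/
def I2 : Ideal A := Ideal.span {2}

theorem I2_fg : (I2 A).FG := ⟨{2}, by simp [I2]⟩

/-- the 2-adic completion -/
abbrev Cp : Type _ := AdicCompletion (I2 A) A

/-- `T → T₀ / 2` -/
def e1 : Cp A →ₐ[A] A ⧸ I2 A := AdicCompletion.evalOneₐ (I2 A)

theorem e1_surj : Function.Surjective (e1 A) := AdicCompletion.evalOneₐ_surjective (I2 A)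

theorem I2_map : (I2 A).map (algebraMap A (Cp A)) = Ideal.span {2} := by
  have h : ∀ J : Ideal A, J = Ideal.span {2} →
      J.map (algebraMap A (Cp A)) = Ideal.span {2} := by
    rintro _ rfl
    rw [Ideal.map_span, Set.image_singleton, map_ofNat]
  exact h (I2 A) rfl

theorem e1_ker : RingHom.ker (e1 A).toRingHom = Ideal.span {2} :=
  (AdicCompletion.ker_evalOneₐ_eq_map (I2 A) (I2_fg A)).trans (I2_map A)

variable {A}

theorem two_dvd_iff (b : Cp A) : 2 ∣ b ↔ e1 A b = 0 := by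
  rw [← Ideal.mem_span_singleton, ← e1_ker, RingHom.mem_ker]
  rfl

theorem e1_map (a : A) : e1 A (algebraMap A (Cp A) a) = Ideal.Quotient.mk (I2 A) a :=
  (e1 A).commutes a

/-- `2 ∣ a` in `T` iff in `T₀` -/
theorem two_dvd_map (a : A) : (2 : Cp A) ∣ algebraMap A (Cp A) a ↔ 2 ∣ a := by
  rw [two_dvd_iff, e1_map, Ideal.Quotient.eq_zero_iff_mem, I2, Ideal.mem_span_singleton]

/-- `T₀` is dense in `T` modulo 2 -/
theorem dense2 (b : Cp A) : ∃ a : A, (2 : Cp A) ∣ b - algebraMap A (Cp A) a := by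
  obtain ⟨a, ha⟩ := Ideal.Quotient.mk_surjective (e1 A b)
  refine ⟨a, ?_⟩
  rw [two_dvd_iff, map_sub, e1_map, ha, sub_self]

end Vale.Agent.P022.H239.L3
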