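import Vale.Agent.P022.H239.L3.Act
import Vale.Agent.P022.H239.L3.Low
import Vale.Agent.P022.H783.HAc

/-!
# P022-L3, row [ACT], part 2: the 2-adic completion of the Hecke ring of weight `i + 1`
-/

open UpperHalfPlane hiding I
open Matrix CongruenceSubgroup Complex
open scoped MatrixGroups ModularForm Manifold Real TensorProduct

noncomputable section

namespace Vale.Agent.P022.H239.L3

open Vale.Agent.P022

theorem TR_comm (i : ℕ) (x y : TR i) : x * y = y * x := by
  have key : ∀ X Y : FreeAlgebra ℤ (Gen 3),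
      Commute (FreeAlgebra.lift ℤ (fun s => gHk 3 s i) X)
        (FreeAlgebra.lift ℤ (fun s => gHk 3 s i) Y) := by
    intro X Y
    induction X using FreeAlgebra.induction with
    | grade0 m =>
      rw [AlgHom.commutes]
      exact Algebra.commutes m _
    | grade1 s =>
      induction Y using FreeAlgebra.induction with
      | grade0 m =>
        rw [AlgHom.commutes]
        exact (Algebra.commutes m _).symm
      | grade1 t =>
        rw [FreeAlgebra.lift_ι_apply, FreeAlgebra.lift_ι_apply]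
        exact H783.gHk_comm s t i
      | mul a b ha hb => rw [map_mul]; exact ha.mul_right hb
      | add a b ha hb => rw [map_add]; exact ha.add_right hb
    | mul a b ha hb => rw [map_mul]; exact ha.mul_left hb
    | add a b ha hb => rw [map_add]; exact ha.add_left hb
  obtain ⟨X, rfl⟩ := wT_surj i x
  obtain ⟨Y, rfl⟩ := wT_surj i y
  exact Subtype.ext (key X Y)

instance (i : ℕ) : CommRing (TR i) :=
  { (inferInstance : Ring (TR i)) with
    mul_comm := TR_comm i }

/-- words in the 2-adic completion of the Hecke ring -/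
def wC (i : ℕ) : FreeAlgebra ℤ (Gen 3) →+* Cp (TR i) :=
  (algebraMap (TR i) (Cp (TR i))).comp (wT i).toRingHom

theorem wC_apply (i : ℕ) (X : FreeAlgebra ℤ (Gen 3)) :
    wC i X = algebraMap (TR i) (Cp (TR i)) (wT i X) := rfl

theorem wC_dense (i : ℕ) (a : Cp (TR i)) : ∃ X, (2 : Cp (TR i)) ∣ a - wC i X := by
  obtain ⟨t, ht⟩ := dense2 a
  obtain ⟨X, rfl⟩ := wT_surj i t
  exact ⟨X, ht⟩

theorem wT_two {i : ℕ} {X : FreeAlgebra ℤ (Gen 3)} (h : (2 : TR i) ∣ wT i X) : wd i X = 0 := by
  obtain ⟨y, hy⟩ := h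
  obtain ⟨Y, rfl⟩ := wT_surj i y
  have h1 : wT i X = wT i (2 * Y) := by
    rw [hy, map_mul, map_ofNat]
  have h2 : wd i X = wd i (2 * Y) := by
    rw [← act_wT, ← act_wT, h1]
  rw [h2, map_mul, map_ofNat]
  refine LinearMap.ext fun f => ?_
  rw [Module.End.mul_apply, LinearMap.zero_apply]
  have h3 : (2 : Module.End (ZMod 2) (Rk i)) = 0 := by
    have h4 : ((2 : ℕ) : Module.End (ZMod 2) (Rk i)) = 0 := by
      rw [← map_natCast (algebraMap (ZMod 2) (Module.End (ZMod 2) (Rk i))) 2]
      have : ((2 : ℕ) : ZMod 2) = 0 := by decide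
      rw [this, map_zero]
    exact_mod_cast h4
  rw [h3, LinearMap.zero_apply]

/-- **the lower side**: a word divisible by two in the completed Hecke ring kills the reductions -/
theorem wC_low {i : ℕ} {X : FreeAlgebra ℤ (Gen 3)} (h : (2 : Cp (TR i)) ∣ wC i X)
    {f : PowerSeries (ZMod 2)} (hf : f ∈ Rk i) : FreeAlgebra.lift ℤ hbar X f = 0 := by
  rw [wC_apply, two_dvd_map] at h
  have h1 := wT_two h
  have h2 := wd_coe i X ⟨f, hf⟩
  rw [h1] at h2
  exact h2.symm

theorem wC_kill {i : ℕ} {X : FreeAlgebra ℤ (Gen 3)}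
    (h : FreeAlgebra.lift ℤ (fun s => gHk 3 s i) X = 0) : wC i X = 0 := by
  have h1 : wT i X = 0 := Subtype.ext h
  rw [wC_apply, h1, map_zero]

end Vale.Agent.P022.H239.L3
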