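import Vale.Agent.P022.H651.FCH
import Vale.Agent.P022.H567.Rec
import Vale.Agent.P022.H853.L3.Dens
import Vale.Agent.P022.H20.L3.Fin3
import Vale.Agent.P022.H269.Nrm

/-!
# P022-L3, row [RES], part 1: characters of `G_ℚ` of odd order unramified outside two are trivial
-/

open NumberField IsDedekindDomain Matrix

noncomputable section

namespace Vale.Agent.P022.H239.L3

open Vale.Agent.P022 Vale.Agent.P022.C

/-- the embedding of `ℚ` -/
abbrev jQ : ℚ →+* Qb := algebraMap ℚ Qb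

theorem mem_GQ (g : GQ) : g ∈ GK jQ := fun x => g.commutes x

theorem fch : FCHStmt := H651.FCH C.REC

theorem ordv_pow {v : HeightOneSpectrum (𝓞 ℚ)} {x : ℚ} (hx : x ≠ 0) (e : ℕ) :
    ordv v (x ^ e) = e * ordv v x := by
  induction e with
  | zero =>
    rw [pow_zero, Nat.cast_zero, zero_mul]
    exact H269.ordv_one v
  | succ e ih =>
    rw [pow_succ, H269.ordv_mul v (pow_ne_zero _ hx) hx, ih]
    push_cast
    ring

theorem notMem_of_coprime {R : Type*} [CommRing R] {P : Ideal R} (hP : P.IsPrime) {q m : ℕ}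
    (hq : (q : R) ∈ P) (h : Nat.Coprime q m) : (m : R) ∉ P := by
  intro hm
  have h1 : IsCoprime (q : ℤ) (m : ℤ) := Nat.isCoprime_iff_coprime.2 h
  obtain ⟨a, b, hab⟩ := h1
  apply hP.ne_top
  rw [Ideal.eq_top_iff_one]
  have h2 : ((a * q + b * m : ℤ) : R) = 1 := by rw [hab]; simp
  rw [← h2]
  push_cast
  exact P.add_mem (P.mul_mem_left _ hq) (P.mul_mem_left _ hm)

theorem ne_bot_of_mem {P : Ideal (𝓞 Qb)} {q : ℕ} (hq0 : q ≠ 0) (hq : (q : 𝓞 Qb) ∈ P) :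
    P ≠ ⊥ := by
  rintro rfl
  rw [Ideal.mem_bot] at hq
  exact hq0 (by exact_mod_cast hq)

/-- the prime below -/
def vb {P : Ideal (𝓞 Qb)} (hP : P.IsPrime) {q : ℕ} (hq : q.Prime) (hqP : (q : 𝓞 Qb) ∈ P) :
    HeightOneSpectrum (𝓞 ℚ) where
  asIdeal := below jQ P
  isPrime := Ideal.IsPrime.comap _
  ne_bot := H651.below_ne_bot jQ (ne_bot_of_mem hq.ne_zero hqP)

theorem absNorm_below {P : Ideal (𝓞 Qb)} (hP : P.IsPrime) {q : ℕ} (hq : q.Prime)
    (hqP : (q : 𝓞 Qb) ∈ P) : Ideal.absNorm (below jQ P) = q := by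
  rw [H20.below_eq hq hP hqP, Ideal.absNorm_span_natCast, RingOfIntegers.rank,
    Module.finrank_self, pow_one]

/-- a Frobenius element over `v` is a Frobenius element at a prime number -/
theorem frI_prime {v : HeightOneSpectrum (𝓞 ℚ)} {P : Ideal (𝓞 Qb)} {g : GK jQ}
    (h : FrI jQ v P g) : ∃ q : ℕ, q.Prime ∧ (q : 𝓞 Qb) ∈ P ∧ v.asIdeal = Ideal.span {(q : 𝓞 ℚ)} ∧
      IsFrob q (g : GQ) := by
  obtain ⟨hP, hb, hg⟩ := h
  have hN : Ideal.absNorm v.asIdeal ≠ 0 := by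
    rw [Ne, Ideal.absNorm_eq_zero_iff]
    exact v.ne_bot
  have hNP : ((Ideal.absNorm v.asIdeal : ℕ) : 𝓞 Qb) ∈ P := by
    rw [← H651.natCast_mem_below jQ, hb]
    exact Ideal.absNorm_mem _
  obtain ⟨q, hq, hqP⟩ := H651.exists_prime_mem hP hN hNP
  have h1 := H20.below_eq hq hP hqP
  have h2 := absNorm_below hP hq hqP
  rw [hb] at h1 h2
  rw [h2] at hg
  exact ⟨q, hq, hqP, h1, P, hP, hqP, hg⟩

theorem conj_sq {φ : ℚ →+* ℝ} {g : GK jQ} (h : CjI jQ φ g) : (g : GQ) * g = 1 := by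
  obtain ⟨Φ, -, h2⟩ := h
  apply AlgEquiv.ext
  intro x
  apply Φ.injective
  rw [AlgEquiv.mul_apply, h2, h2, Complex.conj_conj]
  rfl

/-- **a character of `G_ℚ` of odd order, with open kernel and unramified outside two, is trivial** -/
theorem odd_char {n : ℕ} (hn : Odd n) (θ : GQ →* Multiplicative (ZMod n))
    (hop : IsOpen (θ.ker : Set GQ))
    (hin : ∀ ℓ : ℕ, ℓ.Prime → ℓ ≠ 2 → ∀ P : Ideal (𝓞 Qb), P.IsPrime → (ℓ : 𝓞 Qb) ∈ P →
      ∀ g : GQ, (∀ x : 𝓞 Qb, g • x - x ∈ P) → θ g = 1) (g : GQ) : θ g = 1 := by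
  classical
  let θ' : GK jQ →* Multiplicative (ZMod n) := θ.comp (GK jQ).subtype
  have hop' : IsOpen {g : GK jQ | θ' g = 1} := hop.preimage continuous_subtype_val
  obtain ⟨m, hm0, hm1, hm2, hlaw⟩ := fch ℚ jQ n hn.pos θ' hop'
  obtain ⟨k, hk⟩ : ∃ k, m = 2 ^ k := by
    refine ⟨_, Nat.eq_prime_pow_of_unique_prime_dvd hm0 fun {d} hd hdm => ?_⟩
    by_contra h2
    obtain ⟨P, hP, hdP, g, hg, hne⟩ := hm1 d hd hdm
    exact hne (hin d hd h2 P hP hdP g hg)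
  by_contra hg
  have hnor : ∀ x ∈ GK jQ, ∀ u ∈ θ.ker, x * u * x⁻¹ ∈ θ.ker := by
    intro x _ u hu
    exact θ.normal_ker.conj_mem u hu x
  obtain ⟨L, _, _, _, _, jL, ρ, D, hGL, -⟩ :=
    H916.exists_fld jQ θ.ker hop (fun x _ => mem_GQ x) hnor
  obtain ⟨ℓ, hℓ, hℓ2, P, hP, hlP, φ, hφ, hφL⟩ := H853.frob_not_mem D (s := ⟨g, mem_GQ g⟩)
    (by rw [hGL]; exact hg) (by rw [hGL]; exact hnor) {2} (by simp)
  apply hφL
  rw [hGL]
  show θ φ = 1
  have hℓ2' : ℓ ≠ 2 := by simpa using hℓ2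
  -- the function `f`
  have hfr : ∀ (v : HeightOneSpectrum (𝓞 ℚ)) (P P' : Ideal (𝓞 Qb)) (g g' : GK jQ),
      (m : 𝓞 ℚ) ∉ v.asIdeal → FrI jQ v P g → FrI jQ v P' g' → θ g = θ g' := by
    intro v P P' g g' hv h h'
    obtain ⟨q, hq, hqP, hvq, hF⟩ := frI_prime h
    obtain ⟨q', hq', hqP', hvq', hF'⟩ := frI_prime h'
    have hqq : q = q' := by
      have h1 := congrArg Ideal.absNorm (hvq.symm.trans hvq')
      rw [Ideal.absNorm_span_natCast, Ideal.absNorm_span_natCast, RingOfIntegers.rank,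
        Module.finrank_self, pow_one, pow_one] at h1
      exact h1
    subst hqq
    have hqm : ¬ q ∣ m := fun h1 => hv (by
      rw [hvq]
      exact Ideal.mem_span_singleton.2 (Nat.cast_dvd_cast h1))
    have hcop : Nat.Coprime q m := (Nat.Prime.coprime_iff_not_dvd hq).2 hqm
    obtain ⟨c, hc⟩ := H20.frob_conj θ hq (fun Q hQ hqQ x hx =>
      hm2 Q hQ (ne_bot_of_mem hq.ne_zero hqQ) (notMem_of_coprime hQ hqQ hcop) ⟨x, mem_GQ x⟩ hx)
      hF hF'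
    rw [hc, mul_comm (θ c), mul_assoc, mul_inv_cancel, mul_one]
  let f : HeightOneSpectrum (𝓞 ℚ) → ZMod n := fun v =>
    if h : ∃ (P : Ideal (𝓞 Qb)) (g : GK jQ), FrI jQ v P g then
      Multiplicative.toAdd (θ h.choose_spec.choose) else 0
  have hf : ∀ (v : HeightOneSpectrum (𝓞 ℚ)) (P : Ideal (𝓞 Qb)) (g : GK jQ),
      (m : 𝓞 ℚ) ∉ v.asIdeal → FrI jQ v P g → Multiplicative.toAdd (θ' g) = f v := by
    intro v P g hv h
    have hex : ∃ (P : Ideal (𝓞 Qb)) (g : GK jQ), FrI jQ v P g := ⟨P, g, h⟩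
    have h1 : f v = Multiplicative.toAdd (θ hex.choose_spec.choose) := dif_pos hex
    rw [h1]
    exact congrArg Multiplicative.toAdd
      (hfr v P _ g _ hv h hex.choose_spec.choose_spec)
  have hc : ∀ (φ : ℚ →+* ℝ) (g : GK jQ), CjI jQ φ g →
      Multiplicative.toAdd (θ' g) = (fun _ => (0 : ZMod n)) φ := by
    intro φ g h
    have h1 : θ g * θ g = 1 := by rw [← map_mul, conj_sq h, map_one]
    have h2 : (2 : ZMod n) * Multiplicative.toAdd (θ g) = 0 := by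
      have h3 := congrArg Multiplicative.toAdd h1
      rw [toAdd_mul, toAdd_one] at h3
      rw [two_mul]
      exact h3
    have h4 : IsUnit (2 : ZMod n) := by
      have := (ZMod.isUnit_iff_coprime 2 n).2 (Nat.coprime_two_left.2 hn)
      exact_mod_cast this
    exact (h4.mul_right_eq_zero).1 h2
  -- the number
  have hcop : Nat.Coprime ℓ m := by
    rw [hk]
    exact Nat.Coprime.pow_right _ ((Nat.coprime_primes hℓ Nat.prime_two).2 hℓ2')
  set e : ℕ := Nat.totient m with he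
  have hdv : (m : 𝓞 ℚ) ∣ (ℓ : 𝓞 ℚ) ^ e - 1 := by
    have h1 : ℓ ^ e ≡ 1 [MOD m] := Nat.ModEq.pow_totient hcop
    have h2 : (m : ℤ) ∣ (ℓ : ℤ) ^ e - 1 := by
      have h3 := (Nat.modEq_iff_dvd.1 h1.symm)
      push_cast at h3
      exact h3
    have h3 := map_dvd (Int.castRingHom (𝓞 ℚ)) h2
    simpa using h3
  have hℓ0 : ((ℓ : 𝓞 ℚ)) ≠ 0 := by exact_mod_cast hℓ.ne_zero
  have hlawα := hlaw f hf (fun _ => 0) hc ((ℓ : 𝓞 ℚ) ^ e) (pow_ne_zero _ hℓ0) hdv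
  have hz : ∑ᶠ φ ∈ {φ : ℚ →+* ℝ | φ (((ℓ : 𝓞 ℚ) ^ e : 𝓞 ℚ) : ℚ) < 0}, (0 : ZMod n) = 0 := by
    simp
  have hlaw2 := hlawα
  rw [show (∑ᶠ φ ∈ {φ : ℚ →+* ℝ | φ (((ℓ : 𝓞 ℚ) ^ e : 𝓞 ℚ) : ℚ) < 0},
    (fun _ => (0 : ZMod n)) φ) = 0 from hz, add_zero] at hlaw2
  have hFr : FrI jQ (vb hP hℓ hlP) P φ := by
    refine ⟨hP, rfl, ?_⟩
    have : Ideal.absNorm (vb hP hℓ hlP).asIdeal = ℓ := absNorm_below hP hℓ hlP
    rw [this]
    exact hφ
  have hmv : (m : 𝓞 ℚ) ∉ (vb hP hℓ hlP).asIdeal := by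
    intro h1
    exact notMem_of_coprime hP hlP hcop ((H651.natCast_mem_below jQ).1 h1)
  have hfv : f (vb hP hℓ hlP) = Multiplicative.toAdd (θ φ) := (hf _ P φ hmv hFr).symm
  rw [finsum_eq_single _ (vb hP hℓ hlP)] at hlaw2
  · have h5 : ordv (vb hP hℓ hlP) ((ℓ : 𝓞 ℚ) : ℚ) = 1 := by
      apply H269.ordv_eq_one
      · exact (H651.natCast_mem_below jQ).2 hlP
      · intro h6
        have h7 : (vb hP hℓ hlP).asIdeal = Ideal.span {(ℓ : 𝓞 ℚ)} := H20.below_eq hℓ hP hlP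
        rw [h7, Ideal.span_singleton_pow, Ideal.mem_span_singleton] at h6
        obtain ⟨c, hc⟩ := h6
        have h8 : (ℓ : 𝓞 ℚ) * c = 1 := by
          apply mul_left_cancel₀ hℓ0
          rw [mul_one]
          conv_rhs => rw [hc]
          ring
        have h9 : (ℓ : 𝓞 ℚ) ∈ (vb hP hℓ hlP).asIdeal := (H651.natCast_mem_below jQ).2 hlP
        apply (vb hP hℓ hlP).isPrime.ne_top
        rw [Ideal.eq_top_iff_one, ← h8]
        exact Ideal.mul_mem_right _ _ h9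
    have h6 : ordv (vb hP hℓ hlP) ((((ℓ : 𝓞 ℚ) ^ e : 𝓞 ℚ)) : ℚ) = e := by
      have h7 : ((((ℓ : 𝓞 ℚ) ^ e : 𝓞 ℚ)) : ℚ) = (((ℓ : 𝓞 ℚ)) : ℚ) ^ e := by push_cast; rfl
      rw [h7, ordv_pow (by simpa using hℓ.ne_zero), h5, mul_one]
    rw [h6, hfv] at hlaw2
    have h7 : ((e : ℕ) : ZMod n) * Multiplicative.toAdd (θ φ) = 0 := by
      rw [← hlaw2]
      simp
    have h8 : Nat.Coprime e n := by
      rw [he, hk]
      rcases k with _ | k
      · simp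
      · rw [Nat.totient_prime_pow Nat.prime_two (Nat.succ_pos k)]
        rw [show (2 - 1 : ℕ) = 1 from rfl, mul_one]
        exact Nat.Coprime.pow_left _ (Nat.coprime_two_left.2 hn)
    have h9 : IsUnit ((e : ℕ) : ZMod n) := (ZMod.isUnit_iff_coprime e n).2 h8
    exact (h9.mul_right_eq_zero).1 h7
  · intro v hv
    have h1 : ((ℓ : 𝓞 ℚ)) ∉ v.asIdeal := by
      intro h2
      apply hv
      have h3 : (vb hP hℓ hlP).asIdeal ≤ v.asIdeal := by
        have h7 : (vb hP hℓ hlP).asIdeal = Ideal.span {(ℓ : 𝓞 ℚ)} := H20.below_eq hℓ hP hlP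
        rw [h7, Ideal.span_singleton_le_iff_mem]
        exact h2
      have h4 : (vb hP hℓ hlP).asIdeal.IsMaximal :=
        (vb hP hℓ hlP).isPrime.isMaximal (vb hP hℓ hlP).ne_bot
      exact HeightOneSpectrum.ext (h4.eq_of_le v.isPrime.ne_top h3).symm
    have h2 : ((ℓ : 𝓞 ℚ)) ^ e ∉ v.asIdeal := fun h3 => h1 (v.isPrime.mem_of_pow_mem e h3)
    rw [H269.ordv_eq_zero v h2, zero_smul]

end Vale.Agent.P022.H239.L3
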