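import Vale.Agent.P022.H239.L3.Red

/-!
# P022-L3, row [A8], part 2: `f ↦ θ f` from level one to level three
-/

open UpperHalfPlane hiding I
open Matrix CongruenceSubgroup Complex
open scoped MatrixGroups ModularForm Manifold Real

noncomputable section

namespace Vale.Agent.P022.H239.L3

open Vale.Agent.P022

/-- a form of level one as a form of level three -/
def res3 {k : ℕ} (f : ModularForm 𝒮ℒ (k : ℤ)) : MF 3 k where
  toFun := f
  slash_action_eq' γ hγ := f.slash_action_eq' γ (by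
    obtain ⟨g, _, rfl⟩ := hγ
    exact ⟨g, rfl⟩)
  holo' := f.holo'
  bdd_at_cusps' hc := f.bdd_at_cusps' (hc.mono (by
    rintro _ ⟨g, _, rfl⟩
    exact ⟨g, rfl⟩))

@[simp] theorem res3_coe {k : ℕ} (f : ModularForm 𝒮ℒ (k : ℤ)) : (res3 f : ℍ → ℂ) = f := rfl

/-- the Cauchy product with the coefficients of `θ` -/
def thC (a : ℕ → ℤ) (n : ℕ) : ℤ := ∑ p ∈ Finset.HasAntidiagonal.antidiagonal n, (cc p.1 : ℤ) * a p.2

theorem red_thC (a : ℕ → ℤ) : red (thC a) = red a := by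
  have h1 : red (fun n => (cc n : ℤ)) = 1 := by
    ext n
    rw [red, PowerSeries.coeff_mk, PowerSeries.coeff_one]
    split_ifs with hn
    · rw [hn, cc_zero]
      simp
    · have := cc_even (Nat.pos_of_ne_zero hn)
      rw [← ZMod.natCast_eq_zero_iff_even] at this
      exact_mod_cast this
  have h2 : red (thC a) = red (fun n => (cc n : ℤ)) * red a := by
    ext n
    rw [PowerSeries.coeff_mul]
    simp only [red, PowerSeries.coeff_mk, thC]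
    push_cast
    rfl
  rw [h2, h1, one_mul]

/-- the form `θ f` -/
theorem exists_mul' {k : ℕ} (f : ModularForm 𝒮ℒ (k : ℤ)) (a : ℕ → ℤ)
    (ha : ∀ n, (qExpansion 1 f).coeff n = (a n : ℂ)) :
    ∃ (θ : MF 3 1) (F : MF 3 (k + 1)), IntF (k + 1) (thC a) F ∧
      (F : ℍ → ℂ) = (θ : ℍ → ℂ) * (f : ℍ → ℂ) := by
  obtain ⟨θ, -, h2, -, h4⟩ := exists_theta
  have e : ((k + 1 : ℕ) : ℤ) = ((1 : ℕ) : ℤ) + (k : ℤ) := by push_cast; ring
  let F : MF 3 (k + 1) := ModularForm.mcast e.symm (θ.mul (res3 f))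
  have hF : (F : ℍ → ℂ) = (θ : ℍ → ℂ) * (f : ℍ → ℂ) := rfl
  refine ⟨θ, F, ⟨fun τ => ?_, fun ℓ => ?_⟩, hF⟩
  · refine hsc (H783.hasSum_form F τ) (fun n => ?_) rfl
    congr 1
    have h5 : qExpansion 1 (F : ℍ → ℂ) = qExpansion 1 θ * qExpansion 1 (res3 f) := by
      rw [hF]
      exact ModularForm.qExpansion_mul_coe one_pos one_mem3 θ (res3 f)
    rw [h5, PowerSeries.coeff_mul, thC]
    push_cast
    refine Finset.sum_congr rfl fun p _ => ?_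
    rw [h2, res3_coe, ha]
  · apply DFunLike.coe_injective
    have h6 : (f : ℍ → ℂ) ∣[(k : ℤ)] (gd 3 ℓ.1 ℓ.coprime) = f :=
      f.slash_action_eq' _ ⟨_, rfl⟩
    have h8 : ∀ m : ℤ, m = ((1 : ℕ) : ℤ) + (k : ℤ) → ((θ : ℍ → ℂ) * (f : ℍ → ℂ)) ∣[m]
        (gd 3 ℓ.1 ℓ.coprime) = ((θ : ℍ → ℂ) ∣[((1 : ℕ) : ℤ)] (gd 3 ℓ.1 ℓ.coprime)) * f := by
      rintro _ rfl
      rw [ModularForm.mul_slash_SL2, h6]
    rw [H783.dia_coe, dFun, hF, h8 _ e]
    funext τ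
    have h7 := h4 ℓ τ
    rw [dFun] at h7
    rw [Pi.mul_apply, h7]
    change _ = (jacobiSym (ℓ.1 : ℤ) 3 : ℂ) * ((θ : ℍ → ℂ) τ * (f : ℍ → ℂ) τ)
    ring

/-- **[A8] (2)** -/
theorem exists_mul {k : ℕ} (f : ModularForm 𝒮ℒ (k : ℤ)) (a : ℕ → ℤ)
    (ha : ∀ n, (qExpansion 1 f).coeff n = (a n : ℂ)) :
    ∃ F : MF 3 (k + 1), IntF (k + 1) (thC a) F := by
  obtain ⟨_, F, h, -⟩ := exists_mul' f a ha
  exact ⟨F, h⟩

end Vale.Agent.P022.H239.L3
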