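import Vale.Agent.P022.H239.L3.Act2
import Vale.Agent.P022.H239.L3.Mul
import Vale.Agent.P022.H132.L3.Defs

/-!
# P022-L3: the lower side of a weight datum
-/

open UpperHalfPlane hiding I
open Matrix CongruenceSubgroup Complex
open scoped MatrixGroups ModularForm Manifold Real TensorProduct

noncomputable section

namespace Vale.Agent.P022.H239.L3

open Vale.Agent.P022

/-- a cuspidal form -/
def IsCu {k : ℕ} (F : MF 3 k) : Prop := ∃ G : CuspForm (Gam 3) (k : ℤ), (G : ℍ → ℂ) = F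

theorem IsCu.zero {k : ℕ} : IsCu (0 : MF 3 k) := ⟨0, rfl⟩

theorem IsCu.add {k : ℕ} {F F' : MF 3 k} (h : IsCu F) (h' : IsCu F') : IsCu (F + F') := by
  obtain ⟨G, hG⟩ := h
  obtain ⟨G', hG'⟩ := h'
  refine ⟨G + G', ?_⟩
  rw [FunLike.coe_add, hG, hG']
  rfl

theorem IsCu.smul {k : ℕ} {F : MF 3 k} (h : IsCu F) (m : ℂ) : IsCu (m • F) := by
  obtain ⟨G, hG⟩ := h
  refine ⟨m • G, ?_⟩
  have h1 : ((m • G : CuspForm (Gam 3) (k : ℤ)) : ℍ → ℂ) = m • (G : ℍ → ℂ) := rfl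
  rw [h1, hG]
  rfl

/-- the reductions modulo two of the integral cusp forms of weight `i + 1` -/
def Rk' (i : ℕ) : Submodule (ZMod 2) (PowerSeries (ZMod 2)) where
  carrier := {f | ∃ (a : ℕ → ℤ) (F : MF 3 (i + 1)), IntF (i + 1) a F ∧ IsCu F ∧ red a = f}
  zero_mem' := ⟨0, 0, IntF.zero, IsCu.zero, red_zero⟩
  add_mem' := by
    rintro _ _ ⟨a, F, h, hc, rfl⟩ ⟨b, G, h', hc', rfl⟩
    exact ⟨a + b, F + G, h.add h', hc.add hc', red_add a b⟩
  smul_mem' := by
    rintro c _ ⟨a, F, h, hc, rfl⟩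
    refine ⟨fun n => (c.val : ℤ) * a n, _, h.zsmul (c.val : ℤ), hc.smul _, ?_⟩
    rw [red_mul]
    simp

theorem Rk'_le (i : ℕ) : Rk' i ≤ Rk i := by
  rintro _ ⟨a, F, h, -, rfl⟩
  exact ⟨a, F, h, rfl⟩

/-- **the lower side** of the datum of weight `i + 1` -/
structure Low {i : ℕ} (w : H132.Z.WD i) : Prop where
  dense : ∀ a : w.T, ∃ X, (2 : w.T) ∣ a - w.ev X
  low : ∀ X, (2 : w.T) ∣ w.ev X → ∀ f ∈ Rk' i, FreeAlgebra.lift ℤ hbar X f = 0

/-- two words, the second divisible by two, equal on the cusp forms of weight `i + 1` -/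
theorem low_of {i : ℕ} {X Y : FreeAlgebra ℤ (Gen 3)}
    (h : ∀ F : MF 3 (i + 1), IsCu F → FreeAlgebra.lift ℤ (fun s => gHk 3 s i) X F =
      FreeAlgebra.lift ℤ (fun s => gHk 3 s i) (2 * Y) F)
    {f : PowerSeries (ZMod 2)} (hf : f ∈ Rk' i) : FreeAlgebra.lift ℤ hbar X f = 0 := by
  obtain ⟨a, F, hF, hc, rfl⟩ := hf
  have h1 : FreeAlgebra.lift ℤ (fun s => gHk 3 s i) (X - 2 * Y) F = 0 := by
    rw [map_sub, LinearMap.sub_apply, h F hc, sub_self]
  have h2 := hF.word_zero h1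
  rw [map_sub, LinearMap.sub_apply, sub_eq_zero] at h2
  rw [h2]
  have h5 : (2 : Module.End (ZMod 2) (PowerSeries (ZMod 2))) = 0 := by
    have h4 : ((2 : ℕ) : Module.End (ZMod 2) (PowerSeries (ZMod 2))) = 0 := by
      rw [← map_natCast (algebraMap (ZMod 2) (Module.End (ZMod 2) (PowerSeries (ZMod 2)))) 2]
      have : ((2 : ℕ) : ZMod 2) = 0 := by decide
      rw [this, map_zero]
    exact_mod_cast h4
  rw [map_mul, map_ofNat, Module.End.mul_apply, h5, LinearMap.zero_apply]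

/-- a datum whose ring is the 2-adic completion of the Hecke ring of weight `i + 1` -/
theorem low_of_Cp {i : ℕ} (w : H132.Z.WD i) (e : Cp (TR i) ≃+* w.T)
    (he : ∀ X, w.ev X = e (wC i X)) : Low w where
  dense a := by
    obtain ⟨X, y, hy⟩ := wC_dense i (e.symm a)
    refine ⟨X, e y, ?_⟩
    rw [he]
    have h1 := congrArg e hy
    rw [map_sub, map_mul, map_ofNat, RingEquiv.apply_symm_apply] at h1
    exact h1
  low X hX f hf := by
    refine wC_low (i := i) ?_ (Rk'_le i hf)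
    obtain ⟨y, hy⟩ := hX
    refine ⟨e.symm y, ?_⟩
    apply e.injective
    rw [map_mul, map_ofNat, RingEquiv.apply_symm_apply, ← he, hy]

end Vale.Agent.P022.H239.L3
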