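import Vale.Agent.P022.H239.L3.Theta
import Vale.Agent.P022.H783.QE
import Vale.Agent.P022.H472.Lit2

/-!
# P022-L3, row [A8]: from integral forms of level three with character `(·/3)` to `𝔽₂[[q]]`
-/

open UpperHalfPlane hiding I
open Matrix CongruenceSubgroup Complex
open scoped MatrixGroups ModularForm Manifold Real

noncomputable section

namespace Vale.Agent.P022.H239.L3

open Vale.Agent.P022

/-- `U_l` on power series -/
def U {R : Type*} [CommRing R] (l : ℕ) (f : PowerSeries R) : PowerSeries R :=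
  PowerSeries.mk fun n => PowerSeries.coeff (l * n) f

/-- `f(q ^ l)` -/
def dil {R : Type*} [CommRing R] (l : ℕ) (f : PowerSeries R) : PowerSeries R :=
  PowerSeries.mk fun n => if l ∣ n then PowerSeries.coeff (n / l) f else 0

/-- `T_l` modulo two -/
def hec {R : Type*} [CommRing R] (l : ℕ) (f : PowerSeries R) : PowerSeries R := U l f + dil l f

/-- the reduction modulo two -/
def red (a : ℕ → ℤ) : PowerSeries (ZMod 2) := PowerSeries.mk fun n => (a n : ZMod 2)

/-- a form of level three, weight `k`, character `(·/3)`, with the integral expansion `a` -/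
structure IntF (k : ℕ) (a : ℕ → ℤ) (F : MF 3 k) : Prop where
  sum : ∀ τ : ℍ, HasSum (fun n => (a n : ℂ) * H783.qq τ ^ n) (F τ)
  chr : ∀ ℓ : PA 3, H783.dia k ℓ F = (jacobiSym (ℓ.1 : ℤ) 3 : ℂ) • F

/-- `T_ℓ` on expansions of forms with character `(·/3)` -/
def heckeC (ℓ k : ℕ) (a : ℕ → ℤ) (n : ℕ) : ℤ :=
  a (ℓ * n) + if ℓ ∣ n then (ℓ : ℤ) ^ (k - 1) * (jacobiSym (ℓ : ℤ) 3 * a (n / ℓ)) else 0

variable {k : ℕ} {a b : ℕ → ℤ} {F G : MF 3 k}

theorem IntF.coeff (h : IntF k a F) (n : ℕ) : (qExpansion 1 F).coeff n = (a n : ℂ) := by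
  refine (ModularFormClass.qExpansion_coeff_unique (c := fun n => (a n : ℂ)) one_pos one_mem3
      (fun τ => ?_) n).symm
  exact h.sum τ

theorem IntF.uniq (h : IntF k a F) (h' : IntF k b F) : a = b := by
  funext n
  have := (h.coeff n).symm.trans (h'.coeff n)
  exact_mod_cast this

theorem hsc {f g : ℕ → ℂ} {x y : ℂ} (h : HasSum g x) (e : ∀ n, f n = g n) (e' : y = x) :
    HasSum f y := by
  rw [e', funext e]
  exact h

theorem IntF.zero : IntF k 0 (0 : MF 3 k) where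
  sum τ := hsc hasSum_zero (fun n => by simp) rfl
  chr ℓ := by simp

theorem IntF.add (h : IntF k a F) (h' : IntF k b G) : IntF k (a + b) (F + G) where
  sum τ := by
    refine hsc ((h.sum τ).add (h'.sum τ)) (fun n => ?_) rfl
    simp only [Pi.add_apply]
    push_cast
    ring
  chr ℓ := by
    rw [map_add, h.chr, h'.chr, smul_add]

theorem IntF.zsmul (h : IntF k a F) (m : ℤ) : IntF k (fun n => m * a n) ((m : ℂ) • F) where
  sum τ := by
    refine hsc ((h.sum τ).mul_left (m : ℂ)) (fun n => ?_) rfl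
    push_cast
    ring
  chr ℓ := by
    rw [map_smul, h.chr, smul_comm]

theorem IntF.T (h : IntF k a F) (hk : 1 ≤ k) (ℓ : PA 3) :
    IntF k (heckeC ℓ.1 k a) (H783.Tl k ℓ F) where
  sum τ := by
    have h1 : ∀ τ : ℍ, HasSum (fun n => ((jacobiSym (ℓ.1 : ℤ) 3 * a n : ℤ) : ℂ) * H783.qq τ ^ n)
        (H783.dia k ℓ F τ) := by
      intro τ
      rw [h.chr]
      refine hsc ((h.sum τ).mul_left (jacobiSym (ℓ.1 : ℤ) 3 : ℂ)) (fun n => ?_) rfl
      push_cast
      ring
    refine hsc (H783.hasSum_Tl k ℓ h.sum h1 τ) (fun n => ?_) rfl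
    congr 1
    unfold heckeC
    have e : ((ℓ.1 : ℂ)) ^ ((k : ℤ) - 1) = (ℓ.1 : ℂ) ^ (k - 1) := by
      obtain ⟨j, rfl⟩ : ∃ j, k = j + 1 := ⟨k - 1, by omega⟩
      rw [Nat.add_sub_cancel, ← zpow_natCast]
      congr 1
      push_cast
      ring
    split_ifs with hn
    · rw [e]
      push_cast
      ring
    · push_cast
      ring
  chr ℓ' := by
    have e : H783.dia k ℓ' (H783.Tl k ℓ F) = H783.Tl k ℓ (H783.dia k ℓ' F) :=
      (H783.Tl_slG0 k ℓ (H783.gd_mem ℓ'.coprime) F).symm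
    rw [e, h.chr, map_smul]

theorem IntF.S (h : IntF k a F) (ℓ : PA 3) (i : ℕ) :
    IntF k (fun n => (ℓ.1 ^ i * jacobiSym (ℓ.1 : ℤ) 3 : ℤ) * a n)
      ((((ℓ.1 : ℂ) ^ i) • H783.dia k ℓ) F) := by
  have h1 := h.zsmul (ℓ.1 ^ i * jacobiSym (ℓ.1 : ℤ) 3)
  have e : (((ℓ.1 : ℂ) ^ i) • H783.dia k ℓ) F =
      (((ℓ.1 ^ i * jacobiSym (ℓ.1 : ℤ) 3 : ℤ) : ℂ)) • F := by
    rw [LinearMap.smul_apply, h.chr, smul_smul]
    push_cast
    rfl
  rw [e]
  exact h1

/-! ### reduction -/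

theorem red_add (a b : ℕ → ℤ) : red (a + b) = red a + red b := by
  ext n
  simp [red]

theorem red_zero : red 0 = 0 := by
  ext n
  simp [red]

theorem red_mul (m : ℤ) (a : ℕ → ℤ) : red (fun n => m * a n) = (m : ZMod 2) • red a := by
  ext n
  simp [red]

theorem cast_jac (ℓ : PA 3) : ((jacobiSym (ℓ.1 : ℤ) 3 : ℤ) : ZMod 2) = 1 := by
  have h : jacobiSym (ℓ.1 : ℤ) 3 = 1 ∨ jacobiSym (ℓ.1 : ℤ) 3 = -1 := by
    refine jacobiSym.eq_one_or_neg_one ?_
    have := ℓ.coprime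
    rw [Int.gcd_natCast_natCast]
    exact this
  rcases h with h | h <;> rw [h] <;> decide

theorem cast_ell (ℓ : PA 3) : ((ℓ.1 : ℕ) : ZMod 2) = 1 := by
  have h : ¬ 2 ∣ ℓ.1 := by
    intro h
    have h1 : ℓ.1 = 2 := ((Nat.prime_dvd_prime_iff_eq Nat.prime_two ℓ.2.1).1 h).symm
    exact ℓ.2.2 (by rw [h1]; exact dvd_mul_right 2 3)
  rw [ZMod.natCast_eq_one_iff_odd]
  exact Nat.odd_iff.2 (by omega)

theorem red_T (ℓ : PA 3) (k : ℕ) (a : ℕ → ℤ) : red (heckeC ℓ.1 k a) = hec ℓ.1 (red a) := by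
  ext n
  simp only [red, hec, U, dil, heckeC, PowerSeries.coeff_mk, map_add]
  push_cast
  split_ifs with h
  · rw [cast_ell, cast_jac]
    simp
  · simp

theorem red_S (ℓ : PA 3) (i : ℕ) (a : ℕ → ℤ) :
    red (fun n => (ℓ.1 ^ i * jacobiSym (ℓ.1 : ℤ) 3 : ℤ) * a n) = red a := by
  rw [red_mul]
  push_cast
  rw [cast_ell, cast_jac]
  simp

/-! ### words -/

/-- `hec l` as an endomorphism -/
def hecE (l : ℕ) : Module.End (ZMod 2) (PowerSeries (ZMod 2)) where
  toFun := hec l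
  map_add' f g := by
    ext n
    simp only [hec, U, dil, map_add, PowerSeries.coeff_mk]
    split_ifs <;> ring
  map_smul' c f := by
    ext n
    simp only [hec, U, dil, map_add, PowerSeries.coeff_mk, map_smul, smul_eq_mul, RingHom.id_apply]
    split_ifs <;> ring

/-- the operators modulo two: `T_ℓ ↦ hec ℓ`, `ℓ S_ℓ ↦ 1` -/
def hbar : Gen 3 → Module.End (ZMod 2) (PowerSeries (ZMod 2))
  | Sum.inl ℓ => hecE ℓ.1
  | Sum.inr _ => 1

/-- the action of a word in the Hecke operators on an integral form with character `(·/3)` -/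
theorem IntF.word {i : ℕ} (x : FreeAlgebra ℤ (Gen 3)) : ∀ {a : ℕ → ℤ} {F : MF 3 (i + 1)},
    IntF (i + 1) a F → ∃ b : ℕ → ℤ, IntF (i + 1) b
      (FreeAlgebra.lift ℤ (fun s => gHk 3 s i) x F) ∧
      red b = FreeAlgebra.lift ℤ hbar x (red a) := by
  induction x using FreeAlgebra.induction with
  | grade0 m =>
    intro a F h
    refine ⟨fun n => m * a n, ?_, ?_⟩
    swap
    · rw [red_mul, AlgHom.commutes, Algebra.algebraMap_eq_smul_one, LinearMap.smul_apply,
        Module.End.one_apply]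
      exact Int.cast_smul_eq_zsmul (ZMod 2) m (red a)
    have e : FreeAlgebra.lift ℤ (fun s => gHk 3 s i) (algebraMap ℤ _ m) F = (m : ℂ) • F := by
      rw [AlgHom.commutes, Algebra.algebraMap_eq_smul_one, LinearMap.smul_apply,
        Module.End.one_apply]
      exact (Int.cast_smul_eq_zsmul ℂ m F).symm
    rw [e]
    exact h.zsmul m
  | grade1 s =>
    intro a F h
    rw [FreeAlgebra.lift_ι_apply, FreeAlgebra.lift_ι_apply]
    rcases s with ℓ | ℓ
    · exact ⟨_, h.T (Nat.le_add_left 1 i) ℓ, red_T ℓ (i + 1) a⟩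
    · exact ⟨_, h.S ℓ i, red_S ℓ i a⟩
  | mul x y hx hy =>
    intro a F h
    obtain ⟨b, hb, eb⟩ := hy h
    obtain ⟨c, hc, ec⟩ := hx hb
    refine ⟨c, ?_, ?_⟩
    · rw [map_mul, Module.End.mul_apply]
      exact hc
    · rw [ec, eb, map_mul, Module.End.mul_apply]
  | add x y hx hy =>
    intro a F h
    obtain ⟨b, hb, eb⟩ := hx h
    obtain ⟨c, hc, ec⟩ := hy h
    refine ⟨b + c, ?_, ?_⟩
    · rw [map_add, LinearMap.add_apply]
      exact hb.add hc
    · rw [red_add, ec, eb, map_add, LinearMap.add_apply]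

/-- a word that kills a form kills its reduction -/
theorem IntF.word_zero {i : ℕ} {x : FreeAlgebra ℤ (Gen 3)} {a : ℕ → ℤ} {F : MF 3 (i + 1)}
    (h : IntF (i + 1) a F) (h0 : FreeAlgebra.lift ℤ (fun s => gHk 3 s i) x F = 0) :
    FreeAlgebra.lift ℤ hbar x (red a) = 0 := by
  obtain ⟨b, hb, eb⟩ := h.word x
  rw [h0] at hb
  rw [← eb, hb.uniq IntF.zero, red_zero]

end Vale.Agent.P022.H239.L3
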