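import Vale.Agent.P022.H239.L3.KW
import Vale.Agent.P022.H431.Sv.Defs

/-!
# P022-L3, row [RES], part 2: a residually reducible representation of level 3 is residually trivial
-/

open NumberField Matrix

noncomputable section

namespace Vale.Agent.P022.St

variable {E : Type} [NontriviallyNormedField E]
  (r : (AlgebraicClosure ℚ ≃ₐ[ℚ] AlgebraicClosure ℚ) →* GL (Fin 2) E)

/-- `r` is residually reducible: the traces and determinants of `r` are in the ring `O` of integers
and modulo the maximal ideal they are those of a sum of two characters with values in some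
extension `k` of the residue field -/
def ResRed : Prop :=
  ∃ (O : Subring E) (k : Type) (_ : Field k) (_ : CharP k 2) (π : O →+* k)
    (χ₁ χ₂ : (AlgebraicClosure ℚ ≃ₐ[ℚ] AlgebraicClosure ℚ) →* kˣ),
    (∀ x : E, x ∈ O ↔ ‖x‖ ≤ 1) ∧
    ∀ g, ∃ t d : O, (t : E) = (r g : Matrix (Fin 2) (Fin 2) E).trace ∧
      (d : E) = (r g : Matrix (Fin 2) (Fin 2) E).det ∧ π t = χ₁ g + χ₂ g ∧ π d = χ₁ g * χ₂ g

end Vale.Agent.P022.St

namespace Vale.Agent.P022.H239.L3

open Vale.Agent.P022

theorem unit_sq {k : Type*} [Field k] [CharP k 2] {x : kˣ} (h : x * x = 1) : x = 1 := by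
  apply Units.ext
  have h1 : (x : k) * x = 1 := by
    rw [← Units.val_mul, h, Units.val_one]
  have h2 : ((x : k) - 1) * ((x : k) - 1) = 0 := by
    have h3 : (2 : k) = 0 := CharTwo.two_eq_zero
    linear_combination h1 - ((x : k) - 1) * h3
  have h4 := mul_self_eq_zero.1 h2
  rw [Units.val_one]
  exact sub_eq_zero.1 h4

/-- a character of `G_ℚ` with values in a field of characteristic two, with open kernel and
unramified outside two, is trivial -/
theorem char_two {k : Type} [Field k] [CharP k 2] (χ : GQ →* kˣ)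
    (hop : IsOpen (χ.ker : Set GQ))
    (hin : ∀ ℓ : ℕ, ℓ.Prime → ℓ ≠ 2 → ∀ P : Ideal (𝓞 Qb), P.IsPrime → (ℓ : 𝓞 Qb) ∈ P →
      ∀ g : GQ, (∀ x : 𝓞 Qb, g • x - x ∈ P) → χ g = 1) (g : GQ) : χ g = 1 := by
  have hfq : Finite (GQ ⧸ χ.ker) := Subgroup.quotient_finite_of_isOpen _ hop
  have hfr : Finite χ.range := Finite.of_equiv _ (QuotientGroup.quotientKerEquivRange χ).toEquiv
  have hcy : IsCyclic χ.range := inferInstance
  have hodd : Odd (Nat.card χ.range) := by
    rw [← Nat.not_even_iff_odd]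
    intro he
    have : Fact (Nat.Prime 2) := ⟨Nat.prime_two⟩
    obtain ⟨x, hx⟩ := exists_prime_orderOf_dvd_card' (G := χ.range) 2 he.two_dvd
    have h1 : x ^ 2 = 1 := by rw [← hx, pow_orderOf_eq_one]
    have h2 : (x : kˣ) * x = 1 := by
      have := congrArg Subtype.val h1
      rw [pow_two] at this
      exact this
    have h3 : x = 1 := Subtype.ext (unit_sq h2)
    rw [h3, orderOf_one] at hx
    exact absurd hx (by norm_num)
  let e := (zmodCyclicMulEquiv hcy).symm
  let θ : GQ →* Multiplicative (ZMod (Nat.card χ.range)) := e.toMonoidHom.comp χ.rangeRestrict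
  have hθ : ∀ g, θ g = 1 ↔ χ g = 1 := by
    intro g
    show e (χ.rangeRestrict g) = 1 ↔ _
    rw [map_eq_one_iff e e.injective]
    constructor
    · intro h; exact congrArg Subtype.val h
    · intro h; exact Subtype.ext h
  have hker : θ.ker = χ.ker := by
    ext g
    exact hθ g
  rw [← hθ]
  refine odd_char hodd θ (by rw [hker]; exact hop) (fun ℓ hℓ h2 P hP hlP g hg => ?_) g
  rw [hθ]
  exact hin ℓ hℓ h2 P hP hlP g hg

section

variable {E : Type} [NontriviallyNormedField E] [NormedAlgebra ℚ_[2] E]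

theorem norm_two_E : ‖(2 : E)‖ = 2⁻¹ := by
  have h1 : (2 : E) = algebraMap ℚ_[2] E 2 := by rw [map_ofNat]
  rw [h1, norm_algebraMap']
  have := Padic.norm_p (p := 2)
  exact_mod_cast this

variable {O : Subring E} (hO : ∀ x : E, x ∈ O ↔ ‖x‖ ≤ 1) {k : Type} [Field k] [CharP k 2]
  (π : O →+* k)

include hO

theorem red_zero_of {t : O} (ht : ‖(t : E)‖ < 1) : π t = 0 := by
  obtain ⟨n, hn⟩ := exists_pow_lt_of_lt_one (show (0 : ℝ) < 2⁻¹ by norm_num) ht
  have h2 : (2 : E) ≠ 0 := by
    intro h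
    have := norm_two_E (E := E)
    rw [h, norm_zero] at this
    norm_num at this
  have hs : (t : E) ^ n / 2 ∈ O := by
    rw [hO, norm_div, norm_pow, norm_two_E]
    have := hn.le
    rw [div_le_one (by norm_num)]
    exact this
  have h3 : t ^ n = 2 * (⟨(t : E) ^ n / 2, hs⟩ : O) := by
    apply Subtype.ext
    show (t : E) ^ n = 2 * ((t : E) ^ n / 2)
    field_simp
  have h4 : π t ^ n = 0 := by
    rw [← map_pow, h3, map_mul, map_ofNat, CharTwo.two_eq_zero, zero_mul]
  exact eq_zero_of_pow_eq_zero h4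

omit [NormedAlgebra ℚ_[2] E] [CharP k 2] in
theorem lt_of_red_zero {t : O} (ht : π t = 0) : ‖(t : E)‖ < 1 := by
  by_contra h
  have h1 : ‖(t : E)‖ = 1 := le_antisymm ((hO _).1 t.2) (not_lt.1 h)
  have h0 : (t : E) ≠ 0 := by
    intro h2
    rw [h2, norm_zero] at h1
    exact zero_ne_one h1
  have hs : (t : E)⁻¹ ∈ O := by
    rw [hO, norm_inv, h1, inv_one]
  have h3 : t * (⟨(t : E)⁻¹, hs⟩ : O) = 1 := by
    apply Subtype.ext
    exact mul_inv_cancel₀ h0
  have h4 := congrArg π h3
  rw [map_mul, ht, zero_mul, map_one] at h4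
  exact zero_ne_one h4

theorem key_iff {r : GQ →* GL (Fin 2) E} {χ₁ χ₂ : GQ →* kˣ}
    (h : ∀ g, ∃ t d : O, (t : E) = (r g : Matrix (Fin 2) (Fin 2) E).trace ∧
      (d : E) = (r g : Matrix (Fin 2) (Fin 2) E).det ∧ π t = χ₁ g + χ₂ g ∧ π d = χ₁ g * χ₂ g)
    (g : GQ) : (χ₁ g = 1 ∧ χ₂ g = 1) ↔
      (‖(r g : Matrix (Fin 2) (Fin 2) E).trace‖ < 1 ∧
        ‖(r g : Matrix (Fin 2) (Fin 2) E).det - 1‖ < 1) := by
  obtain ⟨t, d, ht, hd, h1, h2⟩ := h g
  constructor
  · rintro ⟨e1, e2⟩
    rw [e1, e2, Units.val_one] at h1 h2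
    constructor
    · rw [← ht]
      apply lt_of_red_zero hO π
      rw [h1, CharTwo.add_self_eq_zero]
    · rw [← hd]
      have h3 : π (d - 1) = 0 := by rw [map_sub, h2, map_one, mul_one, sub_self]
      exact lt_of_red_zero hO π h3
  · rintro ⟨e1, e2⟩
    rw [← ht] at e1
    rw [← hd] at e2
    have h3 := red_zero_of hO π e1
    have h4 : π (d - 1) = 0 := red_zero_of hO π (t := d - 1) e2
    rw [map_sub, map_one, sub_eq_zero] at h4
    have h5 : χ₁ g = χ₂ g := by
      apply Units.ext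
      rw [h1] at h3
      exact CharTwo.add_eq_zero.1 h3
    have h6 : χ₁ g = 1 := by
      apply unit_sq
      apply Units.ext
      rw [Units.val_mul, Units.val_one, ← h4, h2, h5]
    exact ⟨h6, h5 ▸ h6⟩

end

/-- **[TRIV]** -/
theorem triv : Sv.TrivStmt := by
  intro E _ _ _ r hc hu h3 O hO k _ _ π χ₁ χ₂ h
  have hk := key_iff hO π h
  have h2 := norm_two_E (E := E)
  have hval : Continuous fun g : GQ => (r g : Matrix (Fin 2) (Fin 2) E) :=
    Units.continuous_val.comp hc
  have hopen : IsOpen ((χ₁.ker ⊓ χ₂.ker : Subgroup GQ) : Set GQ) := by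
    have h4 : ((χ₁.ker ⊓ χ₂.ker : Subgroup GQ) : Set GQ) =
        {g | ‖(r g : Matrix (Fin 2) (Fin 2) E).trace‖ < 1} ∩
          {g | ‖(r g : Matrix (Fin 2) (Fin 2) E).det - 1‖ < 1} := by
      ext g
      exact hk g
    rw [h4]
    exact (isOpen_lt hval.matrix_trace.norm continuous_const).inter
      (isOpen_lt (hval.matrix_det.sub continuous_const).norm continuous_const)
  have hin : ∀ ℓ : ℕ, ℓ.Prime → ℓ ≠ 2 → ∀ P : Ideal (𝓞 Qb), P.IsPrime → (ℓ : 𝓞 Qb) ∈ P →
      ∀ g : GQ, (∀ x : 𝓞 Qb, g • x - x ∈ P) → χ₁ g = 1 ∧ χ₂ g = 1 := by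
    intro ℓ hℓ hℓ2 P hP hlP g hg
    rw [hk]
    have hone : r g = 1 → ‖(r g : Matrix (Fin 2) (Fin 2) E).trace‖ < 1 ∧
        ‖(r g : Matrix (Fin 2) (Fin 2) E).det - 1‖ < 1 := by
      intro h1
      rw [h1, Units.val_one, Matrix.trace_one, Matrix.det_one, sub_self, norm_zero]
      simp only [Fintype.card_fin]
      constructor
      · have : ((2 : ℕ) : E) = 2 := by norm_num
        rw [this, h2]
        norm_num
      · norm_num
    by_cases hl3 : ℓ = 3
    · subst hl3
      rcases h3.2 P hP hlP g hg with h1 | ⟨h1, h4⟩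
      · exact hone h1
      · have h5 : (r g : Matrix (Fin 2) (Fin 2) E) * (r g : Matrix (Fin 2) (Fin 2) E) = 1 := by
          rw [← Units.val_mul, h1, Units.val_one]
        have h6 : (r g : Matrix (Fin 2) (Fin 2) E).trace = 0 := by
          set A := (r g : Matrix (Fin 2) (Fin 2) E) with hA
          have e00 := congrFun (congrFun h5 0) 0
          have e01 := congrFun (congrFun h5 0) 1
          have e10 := congrFun (congrFun h5 1) 0
          have e11 := congrFun (congrFun h5 1) 1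
          rw [Matrix.mul_apply, Fin.sum_univ_two] at e00 e01 e10 e11
          rw [Matrix.one_apply_eq] at e00 e11
          rw [Matrix.one_apply_ne (by decide)] at e01 e10
          rw [Matrix.det_fin_two] at h4
          rw [Matrix.trace_fin_two]
          have e1 : A 0 0 * (A 0 0 + A 1 1) = 0 := by linear_combination e00 + h4
          have e2 : A 0 1 * (A 0 0 + A 1 1) = 0 := by linear_combination e01
          by_contra hne
          have a0 := (mul_eq_zero.1 e1).resolve_right hne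
          have a1 := (mul_eq_zero.1 e2).resolve_right hne
          rw [a0, a1] at e00
          simp at e00
        rw [h6, h4, norm_zero]
        refine ⟨by norm_num, ?_⟩
        have : (-1 - 1 : E) = -2 := by norm_num
        rw [this, norm_neg, h2]
        norm_num
    · refine hone (hu ℓ hℓ hℓ2 hl3 P hP hlP g hg)
  intro g
  rw [← hk]
  exact ⟨char_two χ₁ (Subgroup.isOpen_mono inf_le_left hopen)
      (fun ℓ hℓ hl2 P hP hlP g hg => (hin ℓ hℓ hl2 P hP hlP g hg).1) g,
    char_two χ₂ (Subgroup.isOpen_mono inf_le_right hopen)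
      (fun ℓ hℓ hl2 P hP hlP g hg => (hin ℓ hℓ hl2 P hP hlP g hg).2) g⟩

/-- **[RES]** a residually reducible `r` of level 3 is residually trivial -/
theorem resTriv_of {E : Type} [NontriviallyNormedField E] [NormedAlgebra ℚ_[2] E]
    [FiniteDimensional ℚ_[2] E] {r : GQ →* GL (Fin 2) E} (hc : Continuous r)
    (hu : ∀ p : ℕ, p.Prime → p ≠ 2 → p ≠ 3 → St.UnrAt r p) (h3 : St.PrincipalAt3 r)
    (hR : St.ResRed r) : St.ResTriv r := by
  obtain ⟨O, k, _, _, π, χ₁, χ₂, hO, h⟩ := hR
  exact triv E r hc hu h3 O hO k π χ₁ χ₂ h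

end Vale.Agent.P022.H239.L3
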