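import Vale.Agent.P022.H420.Po
import Vale.Agent.P022.H138.LawF
import Vale.Agent.P022.H964.Mft

/-!
# P022-L3, row [A1θ]: `θ = ∑ q ^ (x² + x y + y²)`, weight one on `Γ₁(3)`, `≡ 1` modulo `2`
-/

open UpperHalfPlane hiding I
open Matrix CongruenceSubgroup Complex
open scoped MatrixGroups ModularForm Manifold Real

noncomputable section

namespace Vale.Agent.P022.H239.L3

open Vale.Agent.P022

/-- the exponent `x² + x y + y²` -/
def ph (v : ℤ × ℤ) : ℕ := (Qf 1 1 1 v).toNat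

theorem Qf_nonneg (v : ℤ × ℤ) : 0 ≤ Qf 1 1 1 v := by
  unfold Qf
  nlinarith [sq_nonneg (v.1 + v.2), sq_nonneg v.1, sq_nonneg v.2]

theorem ph_cast (v : ℤ × ℤ) : ((ph v : ℕ) : ℤ) = Qf 1 1 1 v := Int.toNat_of_nonneg (Qf_nonneg v)

theorem fin_fib (n : ℕ) : Finite {v : ℤ × ℤ // ph v = n} := by
  have hs : ({v : ℤ × ℤ | ph v = n}).Finite := by
    refine Set.Finite.subset ((Set.finite_Icc (-(2 * n + 1 : ℤ)) (2 * n + 1)).prod
      (Set.finite_Icc (-(2 * n + 1 : ℤ)) (2 * n + 1))) ?_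
    rintro ⟨x, y⟩ hv
    have h1 : Qf 1 1 1 (x, y) = n := by
      rw [← ph_cast]
      exact congrArg _ hv
    unfold Qf at h1
    simp only at h1
    have hx : x ^ 2 ≤ 2 * n := by nlinarith [sq_nonneg (x + 2 * y)]
    have hy : y ^ 2 ≤ 2 * n := by nlinarith [sq_nonneg (2 * x + y)]
    have key : ∀ z : ℤ, z ^ 2 ≤ 2 * n → -(2 * n + 1 : ℤ) ≤ z ∧ z ≤ 2 * n + 1 := by
      intro z hz
      constructor <;> nlinarith [sq_nonneg (z - 1), sq_nonneg (z + 1)]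
    exact ⟨⟨(key x hx).1, (key x hx).2⟩, ⟨(key y hy).1, (key y hy).2⟩⟩
  exact hs

instance (n : ℕ) : Fintype {v : ℤ × ℤ // ph v = n} := @Fintype.ofFinite _ (fin_fib n)

/-- the number of representations of `n` by `x² + x y + y²` -/
def cc (n : ℕ) : ℕ := Fintype.card {v : ℤ × ℤ // ph v = n}

theorem eq_zero_of_ph {v : ℤ × ℤ} (h : ph v = 0) : v = 0 := by
  obtain ⟨x, y⟩ := v
  have h1 : Qf 1 1 1 (x, y) = 0 := by
    rw [← ph_cast, h]
    rfl
  unfold Qf at h1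
  simp only at h1
  have hx : x ^ 2 ≤ 0 := by nlinarith [sq_nonneg (x + 2 * y)]
  have hy : y ^ 2 ≤ 0 := by nlinarith [sq_nonneg (2 * x + y)]
  have hx0 : x = 0 := by
    have := le_antisymm hx (sq_nonneg x)
    exact pow_eq_zero_iff (two_ne_zero) |>.1 this
  have hy0 : y = 0 := by
    have := le_antisymm hy (sq_nonneg y)
    exact pow_eq_zero_iff (two_ne_zero) |>.1 this
  rw [hx0, hy0]
  rfl

theorem ph_neg (v : ℤ × ℤ) : ph (-v) = ph v := by
  unfold ph Qf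
  congr 1
  simp

theorem ph_zero : ph 0 = 0 := by
  simp [ph, Qf]

theorem cc_zero : cc 0 = 1 := by
  unfold cc
  rw [Fintype.card_eq_one_iff]
  refine ⟨⟨0, ph_zero⟩, ?_⟩
  rintro ⟨v, hv⟩
  exact Subtype.ext (eq_zero_of_ph hv)

theorem cc_even {n : ℕ} (hn : 0 < n) : Even (cc n) := by
  unfold cc
  rw [← Finset.card_univ, ← ZMod.natCast_eq_zero_iff_even, Finset.card_eq_sum_ones, Nat.cast_sum]
  refine Finset.sum_involution (fun v _ => ⟨-v.1, by rw [ph_neg]; exact v.2⟩) ?_ ?_ ?_ ?_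
  · intro a _
    decide
  · rintro ⟨v, hv⟩ _ _ h
    have h1 : -v = v := congrArg Subtype.val h
    have h2 : v = 0 := by
      obtain ⟨x, y⟩ := v
      simp only [Prod.neg_mk, Prod.mk.injEq] at h1
      have : x = 0 := by omega
      have : y = 0 := by omega
      simp_all
    rw [h2, ph_zero] at hv
    omega
  · intro a _
    exact Finset.mem_univ _
  · rintro ⟨v, hv⟩ _
    simp

theorem hs_theta (w : ℂ) (hw : 0 < w.im) :
    HasSum (fun n : ℕ => (cc n : ℂ) * cexp (2 * π * I * n * w)) (th 1 1 1 3 0 (fun _ => 1) w) := by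
  have h0 := (H420.po 1 1 1 3 one_pos (by norm_num) (by norm_num) 0 1 one_pos (fun _ => 1)
    (fun _ _ => rfl) w hw).1
  have h1 : HasSum (thT 1 1 1 3 0 (fun _ => 1) w) (th 1 1 1 3 0 (fun _ => 1) w) := h0.hasSum
  have h2 := (Equiv.sigmaFiberEquiv ph).hasSum_iff.2 h1
  refine h2.sigma fun n => ?_
  have h3 : HasSum (fun v : {v : ℤ × ℤ // ph v = n} => thT 1 1 1 3 0 (fun _ => 1) w v.1)
      (∑ v : {v : ℤ × ℤ // ph v = n}, thT 1 1 1 3 0 (fun _ => 1) w v.1) := hasSum_fintype _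
  have h4 : ∑ v : {v : ℤ × ℤ // ph v = n}, thT 1 1 1 3 0 (fun _ => 1) w v.1 =
      (cc n : ℂ) * cexp (2 * π * I * n * w) := by
    rw [Finset.sum_congr rfl (g := fun _ => cexp (2 * π * I * n * w))]
    · simp [cc]
    · rintro ⟨v, hv⟩ _
      unfold thT
      have : (Qf 1 1 1 v : ℂ) = (n : ℂ) := by
        rw [← hv]
        have := ph_cast v
        exact_mod_cast this.symm
      simp [this]
  rw [h4] at h3
  exact h3

theorem one_mem3 : (1 : ℝ) ∈ (Gam 3).strictPeriods := by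
  simp [Gam, CongruenceSubgroup.strictPeriods_Gamma1]

/-- **[A1θ]** -/
theorem exists_theta : ∃ θ : MF 3 1,
    (∀ τ : ℍ, HasSum (fun n : ℕ => (cc n : ℂ) * cexp (2 * π * I * n * (τ : ℂ))) (θ τ)) ∧
    (∀ n, (qExpansion 1 θ).coeff n = (cc n : ℂ)) ∧
    (∀ (γ : SL(2, ℤ)) (τ : ℍ), (3 : ℤ) ∣ γ 1 0 →
      θ (γ • τ) = jacobiSym (γ 1 1) 3 * ((γ 1 0 : ℂ) * (τ : ℂ) + (γ 1 1 : ℂ)) * θ τ) ∧
    ∀ (ℓ : PA 3) (τ : ℍ), dFun 3 1 ℓ θ τ = jacobiSym (ℓ.1 : ℤ) 3 * θ τ := by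
  have hL : LAWStmt := H138.LAW H420.po
  obtain ⟨G, h1, h2⟩ := H964.MFT hL H420.po 1 1 1 3 one_pos (by decide) (by norm_num)
    0 1 one_pos (fun _ => 1) (fun _ _ => rfl)
  have h3 : ∀ τ : ℍ, HasSum (fun n : ℕ => (cc n : ℂ) * cexp (2 * π * I * n * (τ : ℂ))) (G τ) := by
    intro τ
    rw [h1]
    exact hs_theta τ τ.im_pos
  refine ⟨G, h3, fun n => ?_, fun γ τ hγ => ?_, fun ℓ τ => ?_⟩
  · refine (ModularFormClass.qExpansion_coeff_unique (c := fun n => (cc n : ℂ)) one_pos one_mem3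
      (fun τ => ?_) n).symm
    have e : (fun m : ℕ => (cc m : ℂ) • Function.Periodic.qParam 1 (τ : ℂ) ^ m) =
        fun n : ℕ => (cc n : ℂ) * cexp (2 * π * I * n * (τ : ℂ)) := by
      funext m
      rw [smul_eq_mul, Function.Periodic.qParam, ← Complex.exp_nat_mul]
      congr 2
      push_cast
      ring
    rw [e]
    exact h3 τ
  · have hdet : γ 0 0 * γ 1 1 - γ 0 1 * γ 1 0 = 1 := by
      have := γ.det_coe
      rwa [Matrix.det_fin_two] at this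
    have h4 := hL 1 1 1 3 one_pos (by decide) (by norm_num) 0 1 one_pos (fun _ => 1)
      (fun _ _ => rfl) (γ 0 0) (γ 0 1) (γ 1 0) (γ 1 1) hdet (by simpa using hγ) (τ : ℂ) τ.im_pos
    have h5 : ((γ • τ : ℍ) : ℂ) = ((γ 0 0 : ℂ) * τ + γ 0 1) / ((γ 1 0 : ℂ) * τ + γ 1 1) := by
      rw [UpperHalfPlane.coe_specialLinearGroup_apply]
      simp
    rw [h1, h1, h5, h4]
    simp
  · rw [h1]
    exact h2 ℓ τ

end Vale.Agent.P022.H239.L3

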